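import Vale.Agent.P154q4.D5.DMnn

namespace Vale.Agent.P154q4.D5.Mnn

open Vale.Agent.P154q4.TMC Tr

set_option maxRecDepth 1000000

theorem c0 : chkRoot DMnn
  (zs 0 25165824 (zs 0 12582912 (zs 0 6291456 (zs 0 3145728 (zt 1398102 (zs 2 2796203 lf lf)) (zs 2 2796203 (zs 0 4718592 (zt 1712318 lf) lf) (zs 0 4718592 (zt 1712318 (zs 2 4194304 lf (zs 0 3932160 (zt 1563125 lf) lf))) (zs 2 4194304 (zs 0 5505024 lf lf) (zs 0 5505024 (ys 0 25165824 (ys 0 12582912 lf (zs 1 932068 lf (zt 1849515 lf))) (yx 2)) (ys 0 25165824 (ys 0 12582912 (ys 0 6291456 lf (ys 2 2796203 lf lf)) (ys 0 18874368 (zs 1 932068 lf (ys 2 2796203 lf (yx 3))) (yx 2))) (yx 2))))))) (zs 2 2796203 (zs 0 9437184 (zs 2 1398101 (zs 0 7864320 lf (zs 1 932068 lf (zx 1))) (zs 0 7864320 (zs 1 932068 lf (zf 2357966 lf)) (zs 1 932068 (zs 2 2097152 lf (ys 0 25165824 lf (yx 2)))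 (zf 2152518 (zx 3))))) (zs 2 1398101 (zs 0 11010048 (zs 1 932068 (ys 0 25165824 (ys 0 12582912 lf (ys 0 18874368 lf (yx 2))) (yx 2)) (zx 3)) (zs 1 932068 (ys 0 25165824 (ys 0 12582912 (ys 0 6291456 lf (ys 2 2796203 lf lf)) (ys 0 18874368 (ys 2 2796203 lf (yx 3)) (yx 2))) (yx 2)) (zx 3))) (zs 0 11010048 (zs 1 932068 (ys 0 25165824 (zs 2 2097152 (ys 0 12582912 lf (ys 0 18874368 lf (yx 2))) (ys 0 12582912 lf (zs 0 10223616 lf (zx 3)))) (yx 2)) (zx 3)) (zx 3)))) (zs 0 9437184 (zs 0 7864320 (zs 2 4194304 (zs 0 7077888 (zs 2 3495253 lf (ys 0 25165824 lf (yx 2))) (zs 1 932068 (zs 2 3495253 lf lf) (zs 2 3495253 lf (zx 3)))) (zs 0 7077888 (ys 0 25165824 (zs 1 932068 (zs 2 4893355 lf (ys 0 12582912 lf (ys 0 18874368 lf (yx 2)))) (ys 0 12582912 (ys 0 6291456 lf (ys 2 2796203 (zs 2 4893355 lf (zs 1 1398102 lf (zx 3))) lf)) (ys 0 18874368 (ys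 2 2796203 (zs 2 4893355 lf (zs 1 1398102 (zs 0 6684672 lf (zx 3)) (zx 3))) (yx 3)) (yx 2)))) (yx 2)) (zs 1 932068 (zs 2 4893355 (ys 0 25165824 lf (yx 2)) (ys 0 25165824 (ys 0 12582912 (ys 0 6291456 lf (ys 0 9437184 lf (ys 2 2796203 (zs 1 466034 (zx 4) (zs 0 7471104 lf (zx 3))) (yx 3)))) (ys 0 18874368 (ys 0 15728640 (ys 2 2796203 (zs 1 466034 (zx 4) (zs 0 7471104 lf (zx 3))) (yx 3)) (ys 2 2796203 (zs 1 466034 (zx 4) (zs 0 7471104 lf (zx 3))) (yx 3))) (yx 2))) (yx 2))) (zx 3)))) (zs 2 4194304 (zs 1 932068 (zs 2 3495253 (zs 0 8650752 lf (ys 0 25165824 lf (yx 2))) (zs 0 8650752 (zs 1 466034 (ys 0 25165824 lf (yx 2)) (zx 3)) (zs 1 466034 (ys 0 25165824 lf (yx 2)) (zx 3)))) (zx 3)) (zs 1 932068 (zs 0 8650752 (zs 2 4893355 (ys 0 25165824 (zs 1 466034 lf (zx 3)) (yx 2)) (ys 0 25165824 (ys 0 12582912 (ys 0 6291456 (ys 0 3145728 (yt 1398102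 lf) (zs 1 466034 (zx 4) (zx 3))) (zs 1 466034 (zx 4) (zx 3))) (ys 0 18874368 (zs 1 466034 (zx 4) (zx 3)) (yx 2))) (yx 2))) (zx 3)) (zx 3)))) (zx 3)))) (zs 0 18874368 (zs 2 2796203 (zs 0 15728640 (zs 2 1398101 (zs 0 14155776 (zs 1 932068 (ys 0 25165824 (ys 0 12582912 (ys 0 6291456 lf (ys 2 2796203 lf (zs 2 699050 lf (zx 3)))) (ys 0 18874368 (ys 2 2796203 lf (yx 3)) (yx 2))) (yx 2)) (zx 3)) (zs 1 932068 (ys 0 25165824 (ys 0 12582912 (ys 0 6291456 (ys 2 2796203 lf lf) (ys 2 2796203 lf (zs 2 699050 (ys 0 9437184 lf (yx 3)) (zx 3)))) (ys 0 18874368 (ys 2 2796203 lf (yx 3)) (yx 2))) (yx 2)) (zx 3))) (zx 3)) (zs 2 1398101 (zs 0 17301504 (zs 1 932068 (ys 0 25165824 (ys 0 12582912 (ys 0 6291456 (ys 2 2796203 lf (zs 2 699050 lf (zx 3))) (ys 2 2796203 (zs 2 699050 lf (zx 3)) (zs 2 699050 (ys 0 9437184 (ys 2 4194304 lf (zs 0 16515072 lf lf))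 (yx 3)) (zx 3)))) (ys 0 18874368 (ys 2 2796203 (zs 2 699050 lf (zx 3)) (yx 3)) (yx 2))) (yx 2)) (zx 2)) (zx 2)) (zx 3))) (zx 3)) (zx 2))) (zx 2))
  ⟨0, 50331648, 0, 1864136, 0, 5592406⟩ ⟨0, 50331648, 0, 1864136, 0, 5592406⟩ = true := by decide +kernel

end Vale.Agent.P154q4.D5.Mnn
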